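import Vale.Agent.P245.QuarterMain

open MeasureTheory Real Filter Set
open scoped Topology RealInnerProductSpace

namespace Vale.Agent.P245N.Tail

open Vale.Agent.P245

variable {n : ℕ}

lemma abs_pow_sub_pow_le {x y M : ℝ} (hx : |x| ≤ M) (hy : |y| ≤ M) (i : ℕ) :
    |x ^ i - y ^ i| ≤ i * (|x - y| * M ^ (i - 1)) := by
  have hM : 0 ≤ M := (abs_nonneg x).trans hx
  rw [← geom_sum₂_mul x y i, abs_mul, mul_comm _ |x - y|, mul_left_comm (i : ℝ)]
  refine mul_le_mul_of_nonneg_left ((Finset.abs_sum_le_sum_abs _ _).trans ?_) (abs_nonneg _)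
  calc ∑ k ∈ Finset.range i, |x ^ k * y ^ (i - 1 - k)| ≤ ∑ _k ∈ Finset.range i, M ^ (i - 1) := by
        refine Finset.sum_le_sum fun k hk => ?_
        have hk' := Finset.mem_range.1 hk
        rw [abs_mul, abs_pow, abs_pow, show M ^ (i - 1) = M ^ k * M ^ (i - 1 - k) by
          rw [← pow_add, Nat.add_sub_cancel' (by omega)]]
        exact mul_le_mul (pow_le_pow_left₀ (abs_nonneg _) hx k) (pow_le_pow_left₀ (abs_nonneg _) hy _)
          (by positivity) (by positivity)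
    _ = _ := by simp

/-- Second order bound for an even power. -/
lemma pow_bregman_le (x y : ℝ) (m : ℕ) :
    x ^ (2 * (m + 1)) - y ^ (2 * (m + 1)) - ((2 * (m + 1) : ℕ) : ℝ) * (y ^ (2 * m + 1) * (x - y))
      ≤ 4 * ((m : ℝ) + 1) ^ 2 * ((x ^ (2 * m) + y ^ (2 * m)) * (x - y) ^ 2) := by
  set M := max |x| |y| with hMdef
  have hxM : |x| ≤ M := le_max_left _ _
  have hyM : |y| ≤ M := le_max_right _ _
  have hM : 0 ≤ M := (abs_nonneg x).trans hxM
  set N := 2 * (m + 1) with hN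
  have hterm : ∀ i ∈ Finset.range N,
      |x ^ i * y ^ (N - 1 - i) - y ^ (2 * m + 1)| ≤ (N : ℝ) * (|x - y| * M ^ (2 * m)) := fun i hi => by
    have hi' := Finset.mem_range.1 hi
    have e : x ^ i * y ^ (N - 1 - i) - y ^ (2 * m + 1) = (x ^ i - y ^ i) * y ^ (N - 1 - i) := by
      rw [sub_mul, ← pow_add, show i + (N - 1 - i) = 2 * m + 1 by omega]
    rw [e, abs_mul, abs_pow]
    refine (mul_le_mul (abs_pow_sub_pow_le hxM hyM i) (pow_le_pow_left₀ (abs_nonneg _) hyM _) (by positivity)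
      (by positivity)).trans ?_
    rcases Nat.eq_zero_or_pos i with h0 | h0
    · subst h0; simp; positivity
    rw [mul_assoc, mul_assoc, ← pow_add, show i - 1 + (N - 1 - i) = 2 * m by omega]
    exact mul_le_mul_of_nonneg_right (by exact_mod_cast hi'.le) (by positivity)
  have e : x ^ N - y ^ N - ((N : ℕ) : ℝ) * (y ^ (2 * m + 1) * (x - y))
      = (x - y) * ∑ i ∈ Finset.range N, (x ^ i * y ^ (N - 1 - i) - y ^ (2 * m + 1)) := by
    rw [Finset.sum_sub_distrib, ← geom_sum₂_mul x y N, Finset.sum_const, Finset.card_range, nsmul_eq_mul]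
    ring
  rw [e]
  refine (le_abs_self _).trans ?_
  rw [abs_mul]
  refine (mul_le_mul_of_nonneg_left ((Finset.abs_sum_le_sum_abs _ _).trans (Finset.sum_le_sum hterm)) (abs_nonneg _)).trans ?_
  rw [Finset.sum_const, Finset.card_range, nsmul_eq_mul]
  have h2 : M ^ (2 * m) ≤ x ^ (2 * m) + y ^ (2 * m) := by
    rcases max_choice |x| |y| with h | h <;> rw [hMdef, h, (even_two_mul m).pow_abs]
    · exact le_add_of_nonneg_right ((even_two_mul m).pow_nonneg _)
    · exact le_add_of_nonneg_left ((even_two_mul m).pow_nonneg _)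
  have h3 : |x - y| * |x - y| = (x - y) ^ 2 := by rw [← sq, sq_abs]
  have eN : (N : ℝ) = 2 * ((m : ℝ) + 1) := by rw [hN]; push_cast; ring
  calc |x - y| * ((N : ℝ) * ((N : ℝ) * (|x - y| * M ^ (2 * m))))
      = (N : ℝ) ^ 2 * (M ^ (2 * m) * (|x - y| * |x - y|)) := by ring
    _ ≤ (N : ℝ) ^ 2 * ((x ^ (2 * m) + y ^ (2 * m)) * (|x - y| * |x - y|)) :=
        mul_le_mul_of_nonneg_left (mul_le_mul_of_nonneg_right h2 (mul_self_nonneg _)) (sq_nonneg _)
    _ = _ := by rw [h3, eN]; ring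

lemma frob_mul_pow {N : Op n} {f : OrthonormalBasis (Fin n) ℝ (Euc n)} {y : Fin n → ℝ}
    (he : ∀ i, N (f i) = y i • f i) (D : Op n) (k : ℕ) :
    frob (D * N ^ k) = ∑ i, y i ^ (2 * k) * ‖D (f i)‖ ^ 2 := by
  rw [frob_basis _ f]
  refine Finset.sum_congr rfl fun i _ => ?_
  rw [ContinuousLinearMap.mul_def, ContinuousLinearMap.comp_apply, pow_apply_eigen he, map_smul, norm_smul,
    mul_pow, norm_eq_abs, sq_abs, ← pow_mul, mul_comm k]

/-- Bregman inequality for the trace of an even power. -/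
lemma frob_pow_bregman {M N : Op n} (hM : SymOp M) {f : OrthonormalBasis (Fin n) ℝ (Euc n)}
    {y : Fin n → ℝ} (hf : ∀ j, N (f j) = y j • f j) (hN : SymOp N) (m : ℕ) :
    frob (M ^ (m + 1)) ≤ frob (N ^ (m + 1))
      + ((2 * (m + 1) : ℕ) : ℝ) * ∑ j, y j ^ (2 * m + 1) * (⟪f j, M (f j)⟫ - y j)
      + 4 * ((m : ℝ) + 1) ^ 2 * (frob ((M - N) * M ^ m) + frob ((M - N) * N ^ m)) := by
  obtain ⟨a, x, ha⟩ := hM.exists_eigen
  set c := fun i j => ⟪a i, f j⟫ ^ 2 with hc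
  have hr : ∀ i, ∑ j, c i j = 1 := fun i => by
    have h := norm_sq_eq_sum f (a i)
    rw [a.orthonormal.1 i, one_pow] at h
    simp only [hc]
    rw [h]
    exact Finset.sum_congr rfl fun j _ => by rw [real_inner_comm]
  have hs : ∀ j, ∑ i, c i j = 1 := fun j => by
    have h := norm_sq_eq_sum a (f j)
    rw [f.orthonormal.1 j, one_pow] at h
    simp only [hc]
    exact h.symm
  have hd : ∀ i j, (x i - y j) ^ 2 * c i j = ⟪f j, (M - N) (a i)⟫ ^ 2 := fun i j => by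
    rw [sub_apply, inner_sub_right, ha, inner_smul_right, ← hN (f j), hf, real_inner_smul_left,
      real_inner_comm (a i) (f j)]
    simp only [hc]; ring
  have hd' : ∀ i j, (x i - y j) ^ 2 * c i j = ⟪a i, (M - N) (f j)⟫ ^ 2 := fun i j => by
    rw [sub_apply, inner_sub_right, ← hM (a i), ha, hf, inner_smul_right, real_inner_smul_left]
    simp only [hc]; ring
  have e1 : frob (M ^ (m + 1)) - frob (N ^ (m + 1)) - ((2 * (m + 1) : ℕ) : ℝ) * ∑ j, y j ^ (2 * m + 1) * (⟪f j, M (f j)⟫ - y j)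
      = ∑ i, ∑ j, c i j * (x i ^ (2 * (m + 1)) - y j ^ (2 * (m + 1))
          - ((2 * (m + 1) : ℕ) : ℝ) * (y j ^ (2 * m + 1) * (x i - y j))) := by
    have q : ∀ j, ⟪f j, M (f j)⟫ - y j = ∑ i, c i j * (x i - y j) := fun j => by
      simp only [mul_sub, Finset.sum_sub_distrib, ← Finset.sum_mul, hs, one_mul]
      rw [quad_eigen ha]
      simp only [hc, mul_comm (x _)]
    have p1 : frob (M ^ (m + 1)) = ∑ i, ∑ j, c i j * x i ^ (2 * (m + 1)) := by
      simp only [← Finset.sum_mul, hr, one_mul, frob_pow ha]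
    have p2 : frob (N ^ (m + 1)) = ∑ i, ∑ j, c i j * y j ^ (2 * (m + 1)) := by
      rw [Finset.sum_comm]; simp only [← Finset.sum_mul, hs, one_mul, frob_pow hf]
    have p3 : ((2 * (m + 1) : ℕ) : ℝ) * ∑ j, y j ^ (2 * m + 1) * (⟪f j, M (f j)⟫ - y j)
        = ∑ i, ∑ j, c i j * (((2 * (m + 1) : ℕ) : ℝ) * (y j ^ (2 * m + 1) * (x i - y j))) := by
      rw [Finset.sum_comm, Finset.mul_sum]
      refine Finset.sum_congr rfl fun j _ => ?_
      rw [q, Finset.mul_sum, Finset.mul_sum]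
      exact Finset.sum_congr rfl fun i _ => by ring
    rw [p1, p2, p3, ← Finset.sum_sub_distrib, ← Finset.sum_sub_distrib]
    refine Finset.sum_congr rfl fun i _ => ?_
    rw [← Finset.sum_sub_distrib, ← Finset.sum_sub_distrib]
    exact Finset.sum_congr rfl fun j _ => by ring
  have e2 : frob ((M - N) * M ^ m) = ∑ i, ∑ j, x i ^ (2 * m) * ((x i - y j) ^ 2 * c i j) := by
    rw [frob_mul_pow ha]
    refine Finset.sum_congr rfl fun i _ => ?_
    rw [norm_sq_eq_sum f, Finset.mul_sum]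
    exact Finset.sum_congr rfl fun j _ => by rw [hd]
  have e3 : frob ((M - N) * N ^ m) = ∑ i, ∑ j, y j ^ (2 * m) * ((x i - y j) ^ 2 * c i j) := by
    rw [frob_mul_pow hf, Finset.sum_comm]
    refine Finset.sum_congr rfl fun j _ => ?_
    rw [norm_sq_eq_sum a, Finset.mul_sum]
    exact Finset.sum_congr rfl fun i _ => by rw [hd']
  have key : frob (M ^ (m + 1)) - frob (N ^ (m + 1)) - ((2 * (m + 1) : ℕ) : ℝ) * ∑ j, y j ^ (2 * m + 1) * (⟪f j, M (f j)⟫ - y j)
      ≤ 4 * ((m : ℝ) + 1) ^ 2 * (frob ((M - N) * M ^ m) + frob ((M - N) * N ^ m)) := by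
    rw [e1, e2, e3, ← Finset.sum_add_distrib, Finset.mul_sum]
    refine Finset.sum_le_sum fun i _ => ?_
    rw [← Finset.sum_add_distrib, Finset.mul_sum]
    refine Finset.sum_le_sum fun j _ => ?_
    have := mul_le_mul_of_nonneg_left (pow_bregman_le (x i) (y j) m) (sq_nonneg ⟪a i, f j⟫)
    simp only [hc] at this ⊢
    linarith
  linarith

lemma norm_le_of_eigen {M : Op n} {f : OrthonormalBasis (Fin n) ℝ (Euc n)} {l : Fin n → ℝ}
    (he : ∀ i, M (f i) = l i • f i) (hM : SymOp M) {B : ℝ} (hB : 0 ≤ B) (hl : ∀ i, |l i| ≤ B) : ‖M‖ ≤ B := by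
  refine ContinuousLinearMap.opNorm_le_bound _ hB fun v => ?_
  refine (pow_le_pow_iff_left₀ (norm_nonneg _) (by positivity) two_ne_zero).1 ?_
  rw [mul_pow, norm_sq_eq_sum f, norm_sq_eq_sum f v, Finset.mul_sum]
  refine Finset.sum_le_sum fun i _ => ?_
  rw [← hM (f i), he, real_inner_smul_left, mul_pow, ← sq_abs (l i)]
  exact mul_le_mul_of_nonneg_right (pow_le_pow_left₀ (abs_nonneg _) (hl i) 2) (sq_nonneg _)

lemma op_norm_pow_le (M : Op n) : ∀ k : ℕ, ‖M ^ k‖ ≤ ‖M‖ ^ k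
  | 0 => by rw [pow_zero, pow_zero]; exact ContinuousLinearMap.norm_id_le
  | k + 1 => by
      rw [pow_succ, pow_succ]
      exact (norm_mul_le _ _).trans (mul_le_mul_of_nonneg_right (op_norm_pow_le M k) (norm_nonneg _))

lemma op_pow_sub_pow_le {M N : Op n} {B : ℝ} (hM : ‖M‖ ≤ B) (hN : ‖N‖ ≤ B) (k : ℕ) :
    ‖M ^ k - N ^ k‖ ≤ k * (1 + B) ^ k * ‖M - N‖ := by
  have hB : 0 ≤ B := (norm_nonneg M).trans hM
  induction k with
  | zero => simp
  | succ k ih =>
    have e : M ^ (k + 1) - N ^ (k + 1) = (M ^ k - N ^ k) * M + N ^ k * (M - N) := by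
      rw [pow_succ, pow_succ, sub_mul, mul_sub]; abel
    rw [e]
    refine (norm_add_le _ _).trans ?_
    have h1 := (norm_mul_le (M ^ k - N ^ k) M).trans
      (mul_le_mul ih (hM.trans (by linarith : B ≤ 1 + B)) (norm_nonneg _) (by positivity))
    have h2 := (norm_mul_le (N ^ k) (M - N)).trans (mul_le_mul_of_nonneg_right
      ((op_norm_pow_le N k).trans (pow_le_pow_left₀ (norm_nonneg _) (hN.trans (by linarith : B ≤ 1 + B)) k)) (norm_nonneg _))
    have h3 : (1 + B) ^ k ≤ (1 + B) ^ (k + 1) := pow_le_pow_right₀ (by linarith) (Nat.le_succ k)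
    have h4 := mul_le_mul_of_nonneg_right h3 (norm_nonneg (M - N))
    push_cast
    rw [pow_succ] at *
    linarith

lemma frob_mul_le (D E : Op n) : frob (D * E) ≤ n * ‖D‖ ^ 2 * ‖E‖ ^ 2 := by
  refine (Finset.sum_le_sum fun a _ => ?_).trans (le_of_eq (by simp; ring : ∑ _a : Fin n, ‖D‖ ^ 2 * ‖E‖ ^ 2 = n * ‖D‖ ^ 2 * ‖E‖ ^ 2))
  rw [← mul_pow]
  refine pow_le_pow_left₀ (norm_nonneg _) ((ContinuousLinearMap.le_opNorm _ _).trans ?_) 2
  rw [(stdb n).orthonormal.1 a, mul_one]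
  exact norm_mul_le D E

lemma frob_add_le (M N : Op n) : frob (M + N) ≤ 2 * frob M + 2 * frob N := by
  simp only [frob, Finset.mul_sum, ← Finset.sum_add_distrib]
  refine Finset.sum_le_sum fun a _ => ?_
  rw [add_apply]
  have h := pow_le_pow_left₀ (norm_nonneg _) (norm_add_le (M (stdb n a)) (N (stdb n a))) 2
  nlinarith [sq_nonneg (‖M (stdb n a)‖ - ‖N (stdb n a)‖)]

lemma norm_le_frob (M : Op n) : ‖M‖ ^ 2 ≤ frob M := by
  have h0 := frob_nonneg M
  have h : ‖M‖ ≤ √(frob M) := by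
    refine ContinuousLinearMap.opNorm_le_bound _ (Real.sqrt_nonneg _) fun v => ?_
    conv_lhs => rw [← (stdb n).sum_repr' v]
    rw [map_sum]
    refine (norm_sum_le _ _).trans ?_
    simp only [map_smul, norm_smul, norm_eq_abs]
    refine (pow_le_pow_iff_left₀ (Finset.sum_nonneg fun a _ => by positivity) (by positivity) two_ne_zero).1 ?_
    refine (Finset.sum_mul_sq_le_sq_mul_sq _ _ _).trans (le_of_eq ?_)
    rw [mul_pow, Real.sq_sqrt h0, frob, norm_sq_eq_sum (stdb n) v, mul_comm]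
    simp only [sq_abs]
  exact (pow_le_pow_left₀ (norm_nonneg _) h 2).trans (le_of_eq (Real.sq_sqrt h0))

/-- Bregman inequality with the random power replaced by the mean. -/
lemma frob_pow_bregman' {M N : Op n} (hM : SymOp M) {f : OrthonormalBasis (Fin n) ℝ (Euc n)}
    {y : Fin n → ℝ} (hf : ∀ j, N (f j) = y j • f j) (hN : SymOp N) {B : ℝ} (hMB : ‖M‖ ≤ B) (hNB : ‖N‖ ≤ B) (m : ℕ) :
    frob (M ^ (m + 1)) ≤ frob (N ^ (m + 1))
      + ((2 * (m + 1) : ℕ) : ℝ) * ∑ j, y j ^ (2 * m + 1) * (⟪f j, M (f j)⟫ - y j)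
      + 12 * ((m : ℝ) + 1) ^ 2 * ∑ j, y j ^ (2 * m) * ‖(M - N) (f j)‖ ^ 2
      + 8 * ((m : ℝ) + 1) ^ 2 * (n * ((m : ℝ) * (1 + B) ^ m) ^ 2) * frob (M - N) ^ 2 := by
  refine (frob_pow_bregman hM hf hN m).trans ?_
  have e : (M - N) * M ^ m = (M - N) * N ^ m + (M - N) * (M ^ m - N ^ m) := by rw [← mul_add, add_sub_cancel]
  have h1 := frob_add_le ((M - N) * N ^ m) ((M - N) * (M ^ m - N ^ m))
  rw [← e] at h1
  have h2 : frob ((M - N) * (M ^ m - N ^ m)) ≤ n * ((m : ℝ) * (1 + B) ^ m) ^ 2 * frob (M - N) ^ 2 := by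
    refine (frob_mul_le _ _).trans ?_
    have h3 := pow_le_pow_left₀ (norm_nonneg _) (op_pow_sub_pow_le hMB hNB m) 2
    rw [mul_pow] at h3
    have h4 := pow_le_pow_left₀ (sq_nonneg _) (norm_le_frob (M - N)) 2
    calc (n : ℝ) * ‖M - N‖ ^ 2 * ‖M ^ m - N ^ m‖ ^ 2
        ≤ n * ‖M - N‖ ^ 2 * (((m : ℝ) * (1 + B) ^ m) ^ 2 * ‖M - N‖ ^ 2) := mul_le_mul_of_nonneg_left h3 (by positivity)
      _ = n * ((m : ℝ) * (1 + B) ^ m) ^ 2 * (‖M - N‖ ^ 2) ^ 2 := by ring
      _ ≤ _ := mul_le_mul_of_nonneg_left h4 (by positivity)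
  have h5 : (0 : ℝ) ≤ ((m : ℝ) + 1) ^ 2 := sq_nonneg _
  have h6 := mul_le_mul_of_nonneg_left h1 h5
  have h7 := mul_le_mul_of_nonneg_left h2 h5
  rw [frob_mul_pow hf] at *
  linarith

end Vale.Agent.P245N.Tail
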