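import Vale.Agent.P245N.Tail.Step
import Vale.Agent.P245N.Lichn.Main

/-!
One step of the exponential moment of `phi` along the localisation.
-/

open MeasureTheory Real Filter Set
open scoped Topology RealInnerProductSpace

namespace Vale.Agent.P245N.Tail

open Vale.Agent.P245

variable {n : ℕ}

section

variable {μ : Measure (Euc n)} [IsProbabilityMeasure μ] {R : ℝ}

/-- Improved Lichnerowicz inequality on a fibre. -/
lemma lich_fib (hS : Supp μ R) (hR : 0 ≤ R) (hμ : IsLC 0 μ) {t a : ℝ} (ht : 0 < t) (ha : 0 ≤ a)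
    (z : Euc n) (h : ∀ v, aent t μ z v v ≤ a * ‖v‖ ^ 2) : Poin (fib t μ z) R (√(a / t)) 0 := by
  intro g g' M hg _ _
  have := isProb_fib (T := t) hS z
  rw [zero_mul, add_zero]
  refine Lichn.improved_lichnerowicz (supp_fib hS z) hR ht (isLC_fib hS hμ z) ha (fun v hv => ?_) hg
  have h1 := h v
  rw [hv, one_pow, mul_one] at h1
  refine le_trans (le_of_eq ?_) h1
  rw [aent, inner_bary hS]
  simp only [cen, ← inner_sub_right, sq]

lemma sqrt_norm_mul_phi_le (hS : Supp μ R) (t : ℝ) {m : ℕ} (hm : 1 ≤ m) (θ : Euc n) :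
    √‖Aop t μ θ‖ * phi t μ m θ ≤ 1 := by
  have hp := phi_pos (μ := μ) t m θ
  obtain ⟨f, l, he⟩ := (symOp_Aop (t := t) hS θ).exists_eigen
  have hl := eig_Aop_nonneg hS θ he
  have h : ‖Aop t μ θ‖ ≤ (phi t μ m θ ^ 2)⁻¹ :=
    norm_le_of_eigen he (symOp_Aop hS θ) (by positivity) fun k => by
      rw [abs_of_nonneg (hl k), ← phi_inv_sq t hm]; exact eigen_le_root hm he hl k
  have h2 := Real.sqrt_le_sqrt h
  rw [Real.sqrt_inv, Real.sqrt_sq hp.le] at h2
  exact (mul_le_mul_of_nonneg_right h2 hp.le).trans (le_of_eq (inv_mul_cancel₀ hp.ne'))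

/-- Expected decrease of `phi` in one small step from a fixed point. -/
lemma phi_step_small (hS : Supp μ R) (hR : 0 ≤ R) (hμ : IsLC 0 μ) (i : ℕ) {t η : ℝ} (ht : 0 < t)
    (hη : 0 < η) (hη1 : η ≤ 1) (hηt : η ^ 4 ≤ t)
    (hsmall : 288 * ((i : ℝ) + 2) ^ 2 * √(4 * R ^ 2 / t) * η ^ 4 ≤ 1 / 2) (θ : Euc n) :
    phi t μ (i + 2) θ - (288 * ((i : ℝ) + 2) / √t + 2 * kerr n R i * (3 / √t + 2) * η) * η ^ 4
      ≤ ∫ z, phi (t + η ^ 4) μ (i + 2) (stp (η ^ 4) θ z) ∂((fib t μ θ).prod (gam n)) := by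
  set σ := η ^ 4 with hσdef
  have hσ : 0 ≤ σ := by positivity
  set Err := (288 * ((i : ℝ) + 2) / √t + 2 * kerr n R i * (3 / √t + 2) * η) * σ with hErr
  have := isProb_fib (T := t) hS θ
  have hP := poin_slc ht (isLC_fib (T := t) hS hμ θ) (supp_fib hS θ) hR
  set a := ‖Aop t μ θ‖ with ha
  have ha0 : 0 ≤ a := norm_nonneg _
  have hal : ∀ v, aent t μ θ v v ≤ a * ‖v‖ ^ 2 := fun v => by
    rw [← inner_Aop hS]
    refine (real_inner_le_norm _ _).trans ((mul_le_mul_of_nonneg_left ((Aop t μ θ).le_opNorm v) (norm_nonneg _)).trans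
      (le_of_eq ?_))
    rw [ha]; ring
  have hV : ∀ (z u : Euc n) (δ : ℝ), 0 ≤ δ → (∀ v, aent (t + σ) μ z v v ≤ aent t μ θ v v + δ * ‖v‖ ^ 2) →
      sw (t + σ) μ z u ^ 2 ≤ aent (t + σ) μ z u u * (4 * (√(a / t) + 1 / √t * √δ) * tw (t + σ) μ z u + 0 * sw (t + σ) μ z u) := by
    intro z u δ hδ hdom
    have := isProb_fib (T := t + σ) hS z
    have hts : 0 < t + σ := by linarith
    have hP2 := lich_fib hS hR hμ hts (add_nonneg ha0 hδ) z fun v => (hdom v).trans (by linarith [hal v])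
    have h3 : √((a + δ) / (t + σ)) ≤ √(a / t) + 1 / √t * √δ := by
      refine (Real.sqrt_le_sqrt (div_le_div_of_nonneg_left (add_nonneg ha0 hδ) ht (by linarith))).trans ?_
      rw [Real.sqrt_le_iff]
      refine ⟨by positivity, ?_⟩
      have e1 : (√(a / t)) ^ 2 = a / t := Real.sq_sqrt (by positivity)
      have e2 : (1 / √t * √δ) ^ 2 = δ / t := by
        rw [mul_pow, div_pow, one_pow, Real.sq_sqrt ht.le, Real.sq_sqrt hδ]; ring
      have e3 : 0 ≤ √(a / t) * (1 / √t * √δ) := by positivity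
      rw [add_sq, e1, e2, add_div]; linarith
    have h4 := sw_sq_le (t := t + σ) hS z u (le_refl 0) (hP2.mono h3)
    simpa using h4
  have hc0 : 1 / t * σ ^ 2 + σ ≤ 2 * σ := by
    have h1 : σ / t ≤ 1 := (div_le_one ht).2 hηt
    have := mul_le_mul_of_nonneg_right h1 hσ
    rw [show 1 / t * σ ^ 2 = σ / t * σ by ring]; linarith
  have hV0 : √(a / t) ≤ √(4 * R ^ 2 / t) := Real.sqrt_le_sqrt (div_le_div_of_nonneg_right (norm_Aop_le hS t θ) ht.le)
  have h := phi_step hS hR hσ (by positivity) hP i (V₀ := √(a / t)) (S := 1 / √t) (Real.sqrt_nonneg _) (by positivity) hη hV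
    (by
      refine le_trans ?_ hsmall
      have := mul_le_mul (mul_le_mul_of_nonneg_left hc0 (by positivity : 0 ≤ 144 * ((i : ℝ) + 2) ^ 2)) hV0 (Real.sqrt_nonneg _) (by positivity)
      linarith)
  refine le_trans ?_ h
  have hφ : √(a / t) * phi t μ (i + 2) θ ≤ 1 / √t := by
    rw [Real.sqrt_div ha0, div_mul_eq_mul_div]
    exact div_le_div_of_nonneg_right (sqrt_norm_mul_phi_le hS t (by omega) θ) (Real.sqrt_nonneg _)
  set c0 := 1 / t * σ ^ 2 + σ
  have hc00 : 0 ≤ c0 := by positivity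
  have hk := kerr_nonneg n R i
  have h1 : 1 / √t * (η + c0 / η ^ 3) + c0 ≤ (3 / √t + 2) * η := by
    have h2 : c0 / η ^ 3 ≤ 2 * η := by
      rw [div_le_iff₀ (by positivity)]
      exact hc0.trans (le_of_eq (by rw [hσdef]; ring))
    have h3 : σ ≤ η := by
      rw [hσdef]; exact pow_le_of_le_one hη.le hη1 (by norm_num)
    have h4 : (0 : ℝ) ≤ 1 / √t := by positivity
    have h5 := mul_le_mul_of_nonneg_left (add_le_add (le_refl η) h2) h4
    rw [show (3 : ℝ) / √t = 3 * (1 / √t) by ring]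
    linarith
  have h6 : kerr n R i * (1 / √t * (η + c0 / η ^ 3) + c0) * c0 ≤ kerr n R i * ((3 / √t + 2) * η) * (2 * σ) :=
    mul_le_mul (mul_le_mul_of_nonneg_left h1 hk) hc0 hc00 (by positivity)
  have h7 : 144 * ((i : ℝ) + 2) * c0 * (√(a / t) * phi t μ (i + 2) θ) ≤ 144 * ((i : ℝ) + 2) * (2 * σ) * (1 / √t) :=
    mul_le_mul (mul_le_mul_of_nonneg_left hc0 (by positivity)) hφ (mul_nonneg (Real.sqrt_nonneg _) (phi_pos t _ θ).le)
      (by positivity)
  rw [hErr, show 288 * ((i : ℝ) + 2) / √t = 288 * ((i : ℝ) + 2) * (1 / √t) by ring]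
  linarith

/-- Exponential moment of a Lipschitz function over one step. -/
lemma step_mgf (hS : Supp μ R) {t σ K G lam : ℝ} (hσ : 0 ≤ σ) (hK : 0 ≤ K) (hlam : 0 ≤ lam) {θ₀ : Euc n}
    (hP : Poin (fib t μ θ₀) R K 0) {F : Euc n → ℝ} {F' : Euc n → Euc n} (hF : D1 F F')
    (hB : ∀ z, |F z - ∫ w, F (stp σ θ₀ w) ∂((fib t μ θ₀).prod (gam n))| ≤ 1) (hG : ∀ z, ‖F' z‖ ≤ G) :
    ∫ z, exp (-lam * F (stp σ θ₀ z)) ∂((fib t μ θ₀).prod (gam n))
      ≤ exp (-lam * (∫ w, F (stp σ θ₀ w) ∂((fib t μ θ₀).prod (gam n)))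
          + lam ^ 2 * G ^ 2 * (K * σ ^ 2 + σ) + 5 * exp lam * lam ^ 4 * G ^ 4 * (K * σ ^ 2 + σ) ^ 2) := by
  have := isProb_fib (T := t) hS θ₀
  set P := (fib t μ θ₀).prod (gam n)
  set w := ∫ w, F (stp σ θ₀ w) ∂P with hw
  set c0 := K * σ ^ 2 + σ
  have hc0 : 0 ≤ c0 := by positivity
  have hG0 : 0 ≤ G := (norm_nonneg _).trans (hG 0)
  have hG2 : ∀ z, ‖F' z‖ ^ 2 ≤ G ^ 2 := fun z => pow_le_pow_left₀ (norm_nonneg _) (hG z) 2
  set D := fun θ => F θ - w with hD
  have hd : D1 D F' := ⟨fun θ => (hF.deriv θ).sub_const w, hF.cont'⟩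
  have hDc : Continuous fun z => D (stp σ θ₀ z) := hd.cont.comp (continuous_stp σ θ₀)
  have iD : Integrable (fun z => D (stp σ θ₀ z)) P := integrable_bdd hDc fun z => hB _
  have iD2 : Integrable (fun z => D (stp σ θ₀ z) ^ 2) P := integrable_bdd (hDc.pow 2) fun z => by
    rw [abs_pow]; exact pow_le_pow_left₀ (abs_nonneg _) (hB _) 2
  have iD4 : Integrable (fun z => D (stp σ θ₀ z) ^ 4) P := integrable_bdd (hDc.pow 4) fun z => by
    rw [abs_pow]; exact pow_le_pow_left₀ (abs_nonneg _) (hB _) 4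
  have hm : ∫ z, D (stp σ θ₀ z) ∂P = 0 := by
    have iF : Integrable (fun z => F (stp σ θ₀ z)) P :=
      (iD.add (integrable_const w)).congr (Eventually.of_forall fun z => by simp [hD])
    simp only [hD]
    rw [integral_sub iF (integrable_const _), integral_const, probReal_univ, one_smul, hw, sub_self]
  have h2 := var_stp hS hσ hP hd hB hG2
  rw [hm] at h2
  have hle : ∫ z, ‖F' (stp σ θ₀ z)‖ ^ 2 ∂P ≤ G ^ 2 := by
    have h := integral_mono (μ := P) (f := fun z => ‖F' (stp σ θ₀ z)‖ ^ 2) (g := fun _ => G ^ 2)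
      (integrable_bdd ((hF.cont'.norm.pow 2).comp (continuous_stp σ θ₀)) fun z => by
        rw [abs_of_nonneg (sq_nonneg _)]; exact hG2 _) (integrable_const _) fun z => hG2 _
    simpa using h
  have h2' : ∫ z, D (stp σ θ₀ z) ^ 2 ∂P ≤ c0 * G ^ 2 := by
    have := mul_le_mul_of_nonneg_left hle hc0
    linarith
  have hd2 : D1 (fun θ => D θ ^ 2) (fun θ => (2 * D θ) • F' θ) := by
    refine ⟨fun θ => ?_, (hd.cont.const_mul 2).smul hd.cont'⟩
    have h := (hd.deriv θ).fun_mul (hd.deriv θ)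
    simp only [← sq] at h
    refine h.congr_fderiv ?_
    rw [map_smul, two_mul, add_smul]
  have hg : ∀ θ, ‖(2 * D θ) • F' θ‖ ^ 2 ≤ 4 * G ^ 2 * D θ ^ 2 := fun θ => by
    rw [norm_smul, mul_pow, norm_eq_abs, sq_abs]
    have := mul_le_mul_of_nonneg_left (hG2 θ) (sq_nonneg (2 * D θ))
    linarith
  have h4 := var_stp hS hσ hP hd2 (B := 1) (M := 4 * G ^ 2)
    (fun θ => by rw [abs_pow]; exact (pow_le_pow_left₀ (abs_nonneg _) (hB θ) 2).trans (le_of_eq (one_pow 2)))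
    fun θ => (hg θ).trans (mul_le_of_le_one_right (by positivity) (by
      rw [← sq_abs]; exact pow_le_one₀ (abs_nonneg _) (hB θ)))
  simp only [← pow_mul, show 2 * 2 = 4 from rfl] at h4
  have h4i : ∫ z, ‖(2 * D (stp σ θ₀ z)) • F' (stp σ θ₀ z)‖ ^ 2 ∂P ≤ 4 * G ^ 2 * ∫ z, D (stp σ θ₀ z) ^ 2 ∂P := by
    rw [← integral_const_mul]
    refine integral_mono_of_nonneg (Eventually.of_forall fun z => sq_nonneg _) (iD2.const_mul _) (Eventually.of_forall fun z => hg _)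
  have h20 : 0 ≤ ∫ z, D (stp σ θ₀ z) ^ 2 ∂P := integral_nonneg fun z => sq_nonneg _
  have h4' : ∫ z, D (stp σ θ₀ z) ^ 4 ∂P ≤ 5 * G ^ 4 * c0 ^ 2 := by
    have := mul_le_mul_of_nonneg_left h4i hc0
    have := pow_le_pow_left₀ h20 h2' 2
    have := mul_le_mul_of_nonneg_left h2' (by positivity : 0 ≤ 4 * G ^ 2 * c0)
    linarith
  have hpt : ∀ z, exp (-lam * D (stp σ θ₀ z))
      ≤ 1 + -lam * D (stp σ θ₀ z) + lam ^ 2 * D (stp σ θ₀ z) ^ 2 + exp lam * lam ^ 4 * D (stp σ θ₀ z) ^ 4 := fun z => by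
    set x := -lam * D (stp σ θ₀ z) with hx
    rw [show lam ^ 2 * D (stp σ θ₀ z) ^ 2 = x ^ 2 by rw [hx]; ring,
      show exp lam * lam ^ 4 * D (stp σ θ₀ z) ^ 4 = exp lam * x ^ 4 by rw [hx]; ring]
    rcases le_or_gt |x| 1 with h | h
    · have := abs_exp_sub_one_sub_id_le h
      have := le_abs_self (exp x - 1 - x)
      have : 0 ≤ exp lam * x ^ 4 := by positivity
      linarith
    · have hxl : x ≤ lam := (le_abs_self x).trans (by
        rw [hx, abs_mul, abs_neg, abs_of_nonneg hlam]; exact mul_le_of_le_one_right hlam (hB _))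
      have h4x : 1 ≤ x ^ 4 := by
        rw [← (by decide : Even 4).pow_abs x]; exact one_le_pow₀ h.le
      have := exp_le_exp.2 hxl
      have := mul_le_mul_of_nonneg_left h4x (exp_pos lam).le
      nlinarith [sq_nonneg (x + 1 / 2)]
  have i1 : Integrable (fun z => 1 + -lam * D (stp σ θ₀ z)) P := (integrable_const _).add (iD.const_mul _)
  have i2 : Integrable (fun z => 1 + -lam * D (stp σ θ₀ z) + lam ^ 2 * D (stp σ θ₀ z) ^ 2) P := i1.add (iD2.const_mul _)
  have h := integral_mono_of_nonneg (μ := P) (Eventually.of_forall fun z => (exp_pos _).le)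
    (i2.add (iD4.const_mul _)) (Eventually.of_forall hpt)
  simp only [Pi.add_apply] at h
  rw [integral_add i2 (iD4.const_mul _), integral_add i1 (iD2.const_mul _), integral_add (integrable_const _) (iD.const_mul _),
    integral_const_mul, integral_const_mul, integral_const_mul, hm, integral_const, probReal_univ, one_smul] at h
  have e : ∀ z, exp (-lam * F (stp σ θ₀ z)) = exp (-lam * w) * exp (-lam * D (stp σ θ₀ z)) := fun z => by
    rw [← exp_add, hD]; ring_nf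
  rw [integral_congr_ae (Eventually.of_forall e), integral_const_mul]
  rw [show -lam * w + lam ^ 2 * G ^ 2 * c0 + 5 * exp lam * lam ^ 4 * G ^ 4 * c0 ^ 2
    = -lam * w + (lam ^ 2 * G ^ 2 * c0 + 5 * exp lam * lam ^ 4 * G ^ 4 * c0 ^ 2) by ring, exp_add]
  refine mul_le_mul_of_nonneg_left ?_ (exp_pos _).le
  refine le_trans ?_ (add_one_le_exp _)
  have := mul_le_mul_of_nonneg_left h2' (sq_nonneg lam)
  have := mul_le_mul_of_nonneg_left h4' (by positivity : 0 ≤ exp lam * lam ^ 4)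
  linarith

lemma abs_phi_sub_le {t σ : ℝ} (hS : Supp μ R) {i : ℕ} {θ₀ z : Euc n} :
    |phi (t + σ) μ i z - ∫ w, phi (t + σ) μ i (stp σ θ₀ w) ∂((fib t μ θ₀).prod (gam n))| ≤ 1 := by
  have := isProb_fib (T := t) hS θ₀
  have h0 : 0 ≤ ∫ w, phi (t + σ) μ i (stp σ θ₀ w) ∂((fib t μ θ₀).prod (gam n)) := integral_nonneg fun w => (phi_pos _ _ _).le
  have h1 : ∫ w, phi (t + σ) μ i (stp σ θ₀ w) ∂((fib t μ θ₀).prod (gam n)) ≤ 1 := by
    have h := norm_integral_le_of_norm_le_const (μ := (fib t μ θ₀).prod (gam n))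
      (f := fun w => phi (t + σ) μ i (stp σ θ₀ w)) (C := 1) (Eventually.of_forall fun w => by
        rw [norm_eq_abs]; exact abs_phi_le _ _ _)
    rw [probReal_univ, mul_one, norm_eq_abs] at h
    exact (le_abs_self _).trans h
  have := phi_pos (μ := μ) (t + σ) i z
  have := phi_le_one (μ := μ) (t + σ) i z
  rw [abs_le]
  constructor <;> linarith

/-- Exponential moment of `phi` along the localisation. -/
noncomputable def emom (lam : ℝ) (t : ℝ) (μ : Measure (Euc n)) (m : ℕ) : ℝ :=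
  elaw t μ fun θ => exp (-lam * phi t μ m θ)

lemma abs_exp_phi_le {lam : ℝ} (hlam : 0 ≤ lam) (t : ℝ) (m : ℕ) (θ : Euc n) : |exp (-lam * phi t μ m θ)| ≤ 1 := by
  rw [abs_of_pos (exp_pos _), exp_le_one_iff]
  nlinarith [phi_pos (μ := μ) t m θ]

lemma continuous_exp_phi (hS : Supp μ R) (lam t : ℝ) (m : ℕ) : Continuous fun θ : Euc n => exp (-lam * phi t μ m θ) :=
  ((continuous_phi hS t m).const_mul _).rexp

/-- One step of the supermartingale. -/
lemma emom_step (hS : Supp μ R) (hR : 0 ≤ R) (hμ : IsLC 0 μ) (i : ℕ) {t η lam : ℝ} (ht : 0 < t) (hlam : 0 ≤ lam)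
    (hη : 0 < η) (hη1 : η ≤ 1) (hηt : η ^ 4 ≤ t)
    (hsmall : 288 * ((i : ℝ) + 2) ^ 2 * √(4 * R ^ 2 / t) * η ^ 4 ≤ 1 / 2) :
    emom lam (t + η ^ 4) μ (i + 2)
      ≤ exp (η ^ 4 * (lam * (288 * ((i : ℝ) + 2) / √t + 2 * kerr n R i * (3 / √t + 2) * η)
          + 11250 * lam ^ 2 + 20 * exp lam * lam ^ 4 * 75 ^ 4 * η)) * emom lam t μ (i + 2) := by
  set σ := η ^ 4 with hσdef
  have hσ : 0 ≤ σ := by positivity
  set Err := σ * (lam * (288 * ((i : ℝ) + 2) / √t + 2 * kerr n R i * (3 / √t + 2) * η)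
          + 11250 * lam ^ 2 + 20 * exp lam * lam ^ 4 * 75 ^ 4 * η)
  obtain ⟨hc, hcb⟩ := continuous_step hS t σ (continuous_exp_phi hS lam (t + σ) (i + 2)) (abs_exp_phi_le hlam _ _)
  rw [emom, elaw_comp hS ht.le hσ (continuous_exp_phi hS lam _ _) (abs_exp_phi_le hlam _ _)]
  have hpt : ∀ θ, ∫ y, ∫ G, exp (-lam * phi (t + σ) μ (i + 2) (θ + pt (√σ) y G)) ∂(gam n) ∂(fib t μ θ)
      ≤ exp Err * exp (-lam * phi t μ (i + 2) θ) + 0 := fun θ => by
    have := isProb_fib (T := t) hS θ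
    rw [← integral_stp hS θ (continuous_exp_phi hS lam _ _) (abs_exp_phi_le hlam _ _), add_zero, ← exp_add]
    have h1 := step_mgf (G := 75) hS hσ (by positivity : (0:ℝ) ≤ 1 / t) hlam
      (poin_slc ht (isLC_fib (T := t) hS hμ θ) (supp_fib hS θ) hR) (d1_phi hS (t + σ) (i + 2))
      (fun z => abs_phi_sub_le hS) fun z => norm_phigrad_le hS hμ (by positivity) (i + 1) z
    refine h1.trans (exp_le_exp.2 ?_)
    have h2 := mul_le_mul_of_nonneg_left (phi_step_small hS hR hμ i ht hη hη1 hηt hsmall θ) hlam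
    rw [← hσdef] at h2
    have hc00 : 0 ≤ 1 / t * σ ^ 2 + σ := by positivity
    have hc0 : 1 / t * σ ^ 2 + σ ≤ 2 * σ := by
      have h1 : σ / t ≤ 1 := (div_le_one ht).2 hηt
      have := mul_le_mul_of_nonneg_right h1 hσ
      rw [show 1 / t * σ ^ 2 = σ / t * σ by ring]; linarith
    have h3 := mul_le_mul_of_nonneg_left hc0 (by positivity : 0 ≤ lam ^ 2 * (75:ℝ) ^ 2)
    have hση : σ ≤ η := pow_le_of_le_one hη.le hη1 (by norm_num)
    have h4 : (1 / t * σ ^ 2 + σ) ^ 2 ≤ 4 * σ * η := by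
      refine (pow_le_pow_left₀ hc00 hc0 2).trans ?_
      nlinarith [mul_le_mul_of_nonneg_left hση hσ]
    have h5 := mul_le_mul_of_nonneg_left h4 (by positivity : 0 ≤ 5 * exp lam * lam ^ 4 * (75:ℝ) ^ 4)
    simp only [Err]
    linarith
  have h1 := elaw_mono (t := t) hS (h₂ := fun θ => exp Err * exp (-lam * phi t μ (i + 2) θ) + 0) hc (((continuous_exp_phi hS lam t (i + 2)).const_mul (exp Err)).add continuous_const)
    hcb (B₂ := exp Err) (fun θ => by
      rw [add_zero, abs_mul, abs_of_pos (exp_pos Err)]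
      exact mul_le_of_le_one_right (exp_pos _).le (abs_exp_phi_le hlam _ _ _)) hpt
  rw [elaw_affine hS (continuous_exp_phi hS lam t _) (abs_exp_phi_le hlam _ _), add_zero] at h1
  exact h1

end

end Vale.Agent.P245N.Tail
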