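import Vale.Agent.P245N.Tail.Breg

open MeasureTheory Real Filter Set
open scoped Topology RealInnerProductSpace

namespace Vale.Agent.P245N.Tail

open Vale.Agent.P245

variable {n : ℕ}

/-- Error constant of one localisation step. -/
noncomputable def kerr (n : ℕ) (R : ℝ) (i : ℕ) : ℝ :=
  144 * ((i : ℝ) + 2) ^ 2 * (2 * (n * (4 * R ^ 2) ^ (2 * (i + 2)))) * (2 + n ^ 2 * (8 * R ^ 3) ^ 2)
    + 8 * ((i : ℝ) + 2) ^ 2 * (n * (((i : ℝ) + 1) * (1 + 4 * R ^ 2) ^ (i + 1)) ^ 2) * (5 * n ^ 4 * (8 * R ^ 3) ^ 4)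

lemma kerr_nonneg (n : ℕ) (R : ℝ) (i : ℕ) : 0 ≤ kerr n R i := by
  have := (even_two_mul (i + 2)).pow_nonneg (4 * R ^ 2)
  rw [kerr]; positivity

section

variable {μ : Measure (Euc n)} [IsProbabilityMeasure μ] {R t σ K : ℝ} {θ₀ : Euc n}

lemma var_stp (hS : Supp μ R) (hσ : 0 ≤ σ) (hP : Poin (fib t μ θ₀) R K 0) {F : Euc n → ℝ}
    {F' : Euc n → Euc n} (hF : D1 F F') {B M : ℝ} (hB : ∀ z, |F z| ≤ B) (hM : ∀ z, ‖F' z‖ ^ 2 ≤ M) :
    (∫ z, F (stp σ θ₀ z) ^ 2 ∂((fib t μ θ₀).prod (gam n))) - (∫ z, F (stp σ θ₀ z) ∂((fib t μ θ₀).prod (gam n))) ^ 2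
      ≤ (K * σ ^ 2 + σ) * ∫ z, ‖F' (stp σ θ₀ z)‖ ^ 2 ∂((fib t μ θ₀).prod (gam n)) := by
  have h := var_point hS hσ θ₀ hP hF hB ((sq_nonneg _).trans (hM 0)) hM
  rw [zero_mul, zero_mul, add_zero] at h
  rw [integral_stp hS θ₀ (φ := fun θ => F θ ^ 2) (hF.cont.pow 2) (b := B ^ 2)
      (fun θ => by rw [abs_pow]; exact pow_le_pow_left₀ (abs_nonneg _) (hB θ) 2),
    integral_stp hS θ₀ hF.cont hB,
    integral_stp hS θ₀ (φ := fun θ => ‖F' θ‖ ^ 2) (hF.cont'.norm.pow 2) (b := M)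
      (fun θ => by rw [abs_of_nonneg (sq_nonneg _)]; exact hM θ)]
  exact h

/-- Mean of the fibre covariance after one step. -/
noncomputable def mop (t σ : ℝ) (μ : Measure (Euc n)) (θ₀ : Euc n) : Op n :=
  ∫ z, Aop (t + σ) μ (stp σ θ₀ z) ∂((fib t μ θ₀).prod (gam n))

lemma inner_mop (hS : Supp μ R) (u v : Euc n) :
    ⟪v, mop t σ μ θ₀ u⟫ = ∫ z, aent (t + σ) μ (stp σ θ₀ z) u v ∂((fib t μ θ₀).prod (gam n)) := by
  have := isProb_fib (T := t) hS θ₀
  have hc : Continuous fun z => Aop (t + σ) μ (stp σ θ₀ z) := (continuous_Aop hS).comp (continuous_stp σ θ₀)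
  have hi : Integrable (fun z => Aop (t + σ) μ (stp σ θ₀ z)) ((fib t μ θ₀).prod (gam n)) :=
    Integrable.of_bound hc.aestronglyMeasurable (4 * R ^ 2) (Eventually.of_forall fun z => norm_Aop_le hS _ _)
  rw [mop, ContinuousLinearMap.integral_apply hi, ← integral_inner (hi.apply_continuousLinearMap u)]
  simp only [inner_Aop hS]

lemma symOp_mop (hS : Supp μ R) : SymOp (mop t σ μ θ₀) := fun u v => by
  rw [real_inner_comm, inner_mop hS, inner_mop hS]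
  simp only [aent_comm]

lemma norm_mop_le (hS : Supp μ R) : ‖mop t σ μ θ₀‖ ≤ 4 * R ^ 2 := by
  have := isProb_fib (T := t) hS θ₀
  have h := norm_integral_le_of_norm_le_const (μ := (fib t μ θ₀).prod (gam n))
    (f := fun z => Aop (t + σ) μ (stp σ θ₀ z)) (C := 4 * R ^ 2) (Eventually.of_forall fun z => norm_Aop_le hS _ _)
  simpa [mop] using h

lemma mop_le (hS : Supp μ R) (hR : 0 ≤ R) (hσ : 0 ≤ σ) (v : Euc n) :
    ⟪v, mop t σ μ θ₀ v⟫ ≤ aent t μ θ₀ v v := by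
  rw [inner_mop hS, integral_stp hS θ₀ (φ := fun θ => aent (t + σ) μ θ v v) (continuous_aent hS _ _)
    fun θ => abs_aent_le hS θ _ _]
  exact mean_aent_le hS hR t σ hσ θ₀ v

lemma frob_mop_le (hS : Supp μ R) (hR : 0 ≤ R) (hσ : 0 ≤ σ) {f : OrthonormalBasis (Fin n) ℝ (Euc n)}
    {y : Fin n → ℝ} (hf : ∀ j, mop t σ μ θ₀ (f j) = y j • f j) (m : ℕ) :
    frob (mop t σ μ θ₀ ^ m) ≤ strace t μ m θ₀ := by
  rw [frob_pow hf]
  refine (Finset.sum_le_sum fun j _ => ?_).trans (aent_sub_pow_le (symOp_Aop hS θ₀) f m)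
  have e : y j = ⟪f j, mop t σ μ θ₀ (f j)⟫ := by
    rw [hf, inner_smul_right, real_inner_self_eq_norm_sq, f.orthonormal.1 j]; simp
  rw [inner_Aop hS, e]
  refine pow_le_pow_left₀ ?_ (mop_le hS hR hσ _) _
  rw [inner_mop hS]
  exact integral_nonneg fun z => aent_self_nonneg _ _

lemma norm_wvec_sq_le (hS : Supp μ R) (θ : Euc n) {u v : Euc n} (hu : ‖u‖ = 1) (hv : ‖v‖ = 1) :
    ‖wvec t μ θ u v‖ ^ 2 ≤ (8 * R ^ 3) ^ 2 := by
  have h := norm_wvec_le (t := t) hS θ u v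
  rw [hu, hv, one_mul, one_mul] at h
  exact pow_le_pow_left₀ (norm_nonneg _) h 2

lemma dev_entry (hS : Supp μ R) (hσ : 0 ≤ σ) (hK : 0 ≤ K) (hP : Poin (fib t μ θ₀) R K 0) {u v : Euc n}
    (hu : ‖u‖ = 1) (hv : ‖v‖ = 1) :
    (∫ z, (aent (t + σ) μ (stp σ θ₀ z) u v - ⟪v, mop t σ μ θ₀ u⟫) ^ 2 ∂((fib t μ θ₀).prod (gam n))
        ≤ (K * σ ^ 2 + σ) * ∫ z, ‖wvec (t + σ) μ (stp σ θ₀ z) u v‖ ^ 2 ∂((fib t μ θ₀).prod (gam n))) ∧
      ∫ z, (aent (t + σ) μ (stp σ θ₀ z) u v - ⟪v, mop t σ μ θ₀ u⟫) ^ 4 ∂((fib t μ θ₀).prod (gam n))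
        ≤ 5 * (8 * R ^ 3) ^ 4 * (K * σ ^ 2 + σ) ^ 2 := by
  have := isProb_fib (T := t) hS θ₀
  set P := (fib t μ θ₀).prod (gam n)
  set c0 := K * σ ^ 2 + σ
  have hc0 : 0 ≤ c0 := by positivity
  set b := ⟪v, mop t σ μ θ₀ u⟫ with hb
  set L := (8 * R ^ 3) ^ 2 with hL
  set F := fun θ => aent (t + σ) μ θ u v - b with hF
  have hd : D1 F (fun θ => wvec (t + σ) μ θ u v) :=
    ⟨fun θ => (hasFDerivAt_aent hS θ u v).sub_const b, continuous_wvec hS u v⟩
  have hbd : ∀ θ, |F θ| ≤ 4 * R ^ 2 + |b| := fun θ => by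
    refine (abs_sub _ _).trans (add_le_add ?_ le_rfl)
    simpa [hu, hv] using abs_aent_le (t := t + σ) hS θ u v
  have hM : ∀ θ, ‖wvec (t + σ) μ θ u v‖ ^ 2 ≤ L := fun θ => norm_wvec_sq_le hS θ hu hv
  have h2 := var_stp hS hσ hP hd hbd hM
  have hm : ∫ z, F (stp σ θ₀ z) ∂P = 0 := by
    simp only [hF]
    rw [integral_sub (f := fun z => aent (t + σ) μ (stp σ θ₀ z) u v) (g := fun _ => b)
      (integrable_bdd ((continuous_aent hS u v).comp (continuous_stp σ θ₀)) fun z => abs_aent_le hS _ _ _)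
      (integrable_const _), integral_const, probReal_univ, one_smul, hb, inner_mop hS, sub_self]
  rw [hm] at h2
  have h2' : ∫ z, F (stp σ θ₀ z) ^ 2 ∂P ≤ c0 * ∫ z, ‖wvec (t + σ) μ (stp σ θ₀ z) u v‖ ^ 2 ∂P := by linarith
  refine ⟨h2', ?_⟩
  have hd2 : D1 (fun θ => F θ ^ 2) (fun θ => (2 * F θ) • wvec (t + σ) μ θ u v) := by
    refine ⟨fun θ => ?_, (hd.cont.const_mul 2).smul hd.cont'⟩
    have h := (hd.deriv θ).fun_mul (hd.deriv θ)
    simp only [← sq] at h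
    refine h.congr_fderiv ?_
    rw [map_smul, two_mul, add_smul]
  set B0 := (4 * R ^ 2 + |b|) ^ 2 with hB0
  have hFb : ∀ θ, |F θ ^ 2| ≤ B0 := fun θ => by
    rw [abs_pow]; exact pow_le_pow_left₀ (abs_nonneg _) (hbd θ) 2
  have hg : ∀ θ, ‖(2 * F θ) • wvec (t + σ) μ θ u v‖ ^ 2 ≤ 4 * L * F θ ^ 2 := fun θ => by
    rw [norm_smul, mul_pow, norm_eq_abs, sq_abs]
    have := mul_le_mul_of_nonneg_left (hM θ) (sq_nonneg (2 * F θ))
    linarith
  have hL0 : 0 ≤ L := sq_nonneg _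
  have h4 := var_stp hS hσ hP hd2 hFb (M := 4 * L * B0) fun θ => (hg θ).trans
    (mul_le_mul_of_nonneg_left ((le_abs_self _).trans (hFb θ)) (by positivity))
  have iF2 : Integrable (fun z => F (stp σ θ₀ z) ^ 2) P :=
    integrable_bdd ((hd.cont.pow 2).comp (continuous_stp σ θ₀)) fun z => hFb _
  have hS2 : ∫ z, F (stp σ θ₀ z) ^ 2 ∂P ≤ c0 * L := by
    refine h2'.trans (mul_le_mul_of_nonneg_left ?_ hc0)
    exact (integral_mono (integrable_bdd ((hd.cont'.norm.pow 2).comp (continuous_stp σ θ₀)) fun z => by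
      rw [abs_of_nonneg (sq_nonneg _)]; exact hM _) (integrable_const L) fun z => hM _).trans (le_of_eq (by simp))
  have hG : ∫ z, ‖(2 * F (stp σ θ₀ z)) • wvec (t + σ) μ (stp σ θ₀ z) u v‖ ^ 2 ∂P ≤ 4 * L * (c0 * L) := by
    refine (integral_mono (integrable_bdd ((hd2.cont'.norm.pow 2).comp (continuous_stp σ θ₀)) fun z => by
      rw [abs_of_nonneg (sq_nonneg _)]
      exact (hg _).trans (mul_le_mul_of_nonneg_left ((le_abs_self _).trans (hFb _)) (by positivity)))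
      (iF2.const_mul (4 * L)) fun z => hg _).trans ?_
    rw [integral_const_mul]
    exact mul_le_mul_of_nonneg_left hS2 (by positivity)
  have h5 := pow_le_pow_left₀ (integral_nonneg fun z => sq_nonneg _) hS2 2
  have h6 := mul_le_mul_of_nonneg_left hG hc0
  have e : ∀ z, (aent (t + σ) μ (stp σ θ₀ z) u v - b) ^ 4 = (F (stp σ θ₀ z) ^ 2) ^ 2 := fun z => by
    simp only [hF]; ring
  rw [integral_congr_ae (Eventually.of_forall e)]
  rw [hL] at h5 h6
  ring_nf at h4 h5 h6 ⊢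
  linarith

lemma dev_apply (hS : Supp μ R) (hσ : 0 ≤ σ) (hK : 0 ≤ K) (hP : Poin (fib t μ θ₀) R K 0) {u : Euc n} (hu : ‖u‖ = 1) :
    ∫ z, ‖(Aop (t + σ) μ (stp σ θ₀ z) - mop t σ μ θ₀) u‖ ^ 2 ∂((fib t μ θ₀).prod (gam n))
      ≤ (K * σ ^ 2 + σ) * ∫ z, sw (t + σ) μ (stp σ θ₀ z) u ∂((fib t μ θ₀).prod (gam n)) := by
  have := isProb_fib (T := t) hS θ₀
  have e : ∀ z, ‖(Aop (t + σ) μ (stp σ θ₀ z) - mop t σ μ θ₀) u‖ ^ 2
      = ∑ a, (aent (t + σ) μ (stp σ θ₀ z) u (stdb n a) - ⟪stdb n a, mop t σ μ θ₀ u⟫) ^ 2 := fun z => by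
    simp only [norm_sq_eq_sum (stdb n), sub_apply, inner_sub_right, inner_Aop hS]
  rw [integral_congr_ae (Eventually.of_forall e)]
  simp only [sw]
  have i1 : ∀ a, Integrable (fun z => (aent (t + σ) μ (stp σ θ₀ z) u (stdb n a) - ⟪stdb n a, mop t σ μ θ₀ u⟫) ^ 2)
      ((fib t μ θ₀).prod (gam n)) := fun a => integrable_bdd
      ((((continuous_aent hS u (stdb n a)).comp (continuous_stp σ θ₀)).sub continuous_const).pow 2)
      (b := (4 * R ^ 2 + |⟪stdb n a, mop t σ μ θ₀ u⟫|) ^ 2) fun z => by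
        rw [abs_pow]
        refine pow_le_pow_left₀ (abs_nonneg _) ((abs_sub _ _).trans (add_le_add ?_ le_rfl)) 2
        simpa [hu, (stdb n).orthonormal.1 a] using abs_aent_le (t := t + σ) hS (stp σ θ₀ z) u (stdb n a)
  have i2 : ∀ a, Integrable (fun z => ‖wvec (t + σ) μ (stp σ θ₀ z) u (stdb n a)‖ ^ 2)
      ((fib t μ θ₀).prod (gam n)) := fun a => integrable_bdd
      (((continuous_wvec hS u (stdb n a)).comp (continuous_stp σ θ₀)).norm.pow 2) (b := (8 * R ^ 3) ^ 2) fun z => by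
        rw [abs_of_nonneg (sq_nonneg _)]; exact norm_wvec_sq_le hS _ hu ((stdb n).orthonormal.1 a)
  rw [integral_finsetSum _ fun a _ => i1 a, integral_finsetSum _ fun a _ => i2 a, Finset.mul_sum]
  exact Finset.sum_le_sum fun a _ => (dev_entry hS hσ hK hP hu ((stdb n).orthonormal.1 a)).1

lemma dev_frob (hS : Supp μ R) (hσ : 0 ≤ σ) (hK : 0 ≤ K) (hP : Poin (fib t μ θ₀) R K 0) :
    (∫ z, frob (Aop (t + σ) μ (stp σ θ₀ z) - mop t σ μ θ₀) ∂((fib t μ θ₀).prod (gam n))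
        ≤ (K * σ ^ 2 + σ) * (n ^ 2 * (8 * R ^ 3) ^ 2)) ∧
      ∫ z, frob (Aop (t + σ) μ (stp σ θ₀ z) - mop t σ μ θ₀) ^ 2 ∂((fib t μ θ₀).prod (gam n))
        ≤ 5 * n ^ 4 * (8 * R ^ 3) ^ 4 * (K * σ ^ 2 + σ) ^ 2 := by
  have := isProb_fib (T := t) hS θ₀
  set P := (fib t μ θ₀).prod (gam n)
  set c0 := K * σ ^ 2 + σ
  have hc0 : 0 ≤ c0 := by positivity
  set D := fun z => Aop (t + σ) μ (stp σ θ₀ z) - mop t σ μ θ₀ with hD
  have hDc : Continuous D := ((continuous_Aop hS).comp (continuous_stp σ θ₀)).sub continuous_const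
  have hDn : ∀ z, ‖D z‖ ≤ 8 * R ^ 2 := fun z => (norm_sub_le _ _).trans (by linarith [norm_Aop_le hS (t + σ) (stp σ θ₀ z), norm_mop_le (t := t) (σ := σ) (θ₀ := θ₀) hS])
  have hcol : ∀ a, Continuous fun z => ‖D z (stdb n a)‖ ^ 2 := fun a => (hDc.clm_apply continuous_const).norm.pow 2
  have hcolb : ∀ a z, |‖D z (stdb n a)‖ ^ 2| ≤ (8 * R ^ 2) ^ 2 := fun a z => by
    rw [abs_of_nonneg (sq_nonneg _)]
    refine pow_le_pow_left₀ (norm_nonneg _) (((D z).le_opNorm _).trans ?_) 2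
    rw [(stdb n).orthonormal.1 a, mul_one]; exact hDn z
  refine ⟨?_, ?_⟩
  · change ∫ z, frob (D z) ∂P ≤ _
    simp only [frob]
    rw [integral_finsetSum _ fun a _ => integrable_bdd (hcol a) (hcolb a)]
    refine (Finset.sum_le_sum fun a _ => (dev_apply hS hσ hK hP ((stdb n).orthonormal.1 a)).trans
      (mul_le_mul_of_nonneg_left (integral_mono_of_nonneg (Eventually.of_forall fun z => sw_nonneg _ _)
        (integrable_const (n * (8 * R ^ 3) ^ 2)) (Eventually.of_forall fun z => (sw_le hS _ _ _).trans ?_)) hc0)).trans ?_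
    · rw [(stdb n).orthonormal.1 a, one_mul]
    · simp only [Finset.sum_const, Finset.card_univ, Fintype.card_fin, nsmul_eq_mul, integral_const, probReal_univ, one_smul]
      simp only [c0]
      linarith
  · have hpt : ∀ z, frob (D z) ^ 2 ≤ n ^ 2 * ∑ p : Fin n × Fin n, ⟪stdb n p.2, D z (stdb n p.1)⟫ ^ 4 := fun z => by
      have e : frob (D z) = ∑ p : Fin n × Fin n, ⟪stdb n p.2, D z (stdb n p.1)⟫ ^ 2 := by
        rw [Fintype.sum_prod_type, frob]
        exact Finset.sum_congr rfl fun a _ => norm_sq_eq_sum _ _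
      rw [e]
      refine sq_sum_le_card_mul_sum_sq.trans (le_of_eq ?_)
      simp only [Finset.card_univ, Fintype.card_prod, Fintype.card_fin, Nat.cast_mul, ← pow_mul]
      ring
    have hec : ∀ p : Fin n × Fin n, Continuous fun z => ⟪stdb n p.2, D z (stdb n p.1)⟫ ^ 4 := fun p =>
      ((continuous_const (y := stdb n p.2)).inner (𝕜 := ℝ) (hDc.clm_apply continuous_const)).pow 4
    have heb : ∀ p z, |⟪stdb n (Prod.snd (p : Fin n × Fin n)), D z (stdb n p.1)⟫ ^ 4| ≤ (8 * R ^ 2) ^ 4 := fun p z => by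
      rw [abs_pow]
      refine pow_le_pow_left₀ (abs_nonneg _) ((abs_real_inner_le_norm _ _).trans ?_) 4
      rw [(stdb n).orthonormal.1 p.2, one_mul]
      refine ((D z).le_opNorm _).trans ?_
      rw [(stdb n).orthonormal.1 p.1, mul_one]; exact hDn z
    change ∫ z, frob (D z) ^ 2 ∂P ≤ _
    refine (integral_mono_of_nonneg (Eventually.of_forall fun z => sq_nonneg _)
      ((integrable_finsetSum _ fun p _ => integrable_bdd (hec p) (heb p)).const_mul ((n : ℝ) ^ 2))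
      (Eventually.of_forall hpt)).trans ?_
    rw [integral_const_mul, integral_finsetSum _ fun p _ => integrable_bdd (hec p) (heb p)]
    refine (mul_le_mul_of_nonneg_left (Finset.sum_le_sum fun p _ => le_trans (le_of_eq ?_)
      (dev_entry hS hσ hK hP ((stdb n).orthonormal.1 p.1) ((stdb n).orthonormal.1 p.2)).2) (by positivity)).trans (le_of_eq ?_)
    · simp only [hD, sub_apply, inner_sub_right, inner_Aop hS]
      rfl
    · simp; ring

lemma sqrt_le_amgm {d g η : ℝ} (hd : 0 ≤ d) (hη : 0 < η) (hg : d ^ 2 ≤ g) : √d ≤ 2 * η + g / η ^ 3 := by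
  have hr := Real.sqrt_nonneg d
  have e : (√d) ^ 2 = d := Real.sq_sqrt hd
  have h9 : √d ≤ η + d / η := by
    rw [← sub_le_iff_le_add', le_div_iff₀ hη]
    nlinarith [sq_nonneg (η - √d)]
  have h8 : d / η ≤ η + g / η ^ 3 := by
    rw [← sub_le_iff_le_add', le_div_iff₀ (by positivity),
      show (d / η - η) * η ^ 3 = d * η ^ 2 - η ^ 2 * η ^ 2 by field_simp]
    nlinarith [sq_nonneg (η ^ 2 - d)]
  linarith

lemma sum_weighted_sw_le (hS : Supp μ R) (hR : 0 ≤ R) (hσ : 0 ≤ σ) (i : ℕ) {V₀ S η : ℝ} (hV₀ : 0 ≤ V₀)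
    (hS0 : 0 ≤ S) (hη : 0 < η)
    (hV : ∀ (z u : Euc n) (δ : ℝ), 0 ≤ δ →
      (∀ v, aent (t + σ) μ z v v ≤ aent t μ θ₀ v v + δ * ‖v‖ ^ 2) →
      sw (t + σ) μ z u ^ 2 ≤ aent (t + σ) μ z u u * (4 * (V₀ + S * √δ) * tw (t + σ) μ z u + 0 * sw (t + σ) μ z u))
    {f : OrthonormalBasis (Fin n) ℝ (Euc n)} {y : Fin n → ℝ} (hf : ∀ j, mop t σ μ θ₀ (f j) = y j • f j)
    (z : Euc n) :
    ∑ j, |y j| ^ (2 * i + 2) * sw (t + σ) μ z (f j)
      ≤ 12 * (V₀ * (strace t μ (i + 2) θ₀ + strace (t + σ) μ (i + 2) z)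
        + S * (2 * (n * (4 * R ^ 2) ^ (2 * (i + 2)))) * (2 * η + frob (Aop (t + σ) μ z - mop t σ μ θ₀) / η ^ 3)) := by
  set A := Aop (t + σ) μ z with hA
  set N := mop t σ μ θ₀ with hN
  set d := ‖A - N‖ with hd
  have hd0 : 0 ≤ d := norm_nonneg _
  have hdom : ∀ v, aent (t + σ) μ z v v ≤ aent t μ θ₀ v v + d * ‖v‖ ^ 2 := fun v => by
    have h1 := mop_le (t := t) (θ₀ := θ₀) hS hR hσ v
    have h2 : ⟪v, (A - N) v⟫ ≤ d * ‖v‖ ^ 2 := (le_abs_self _).trans ((abs_real_inner_le_norm _ _).trans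
      ((mul_le_mul_of_nonneg_left ((A - N).le_opNorm v) (norm_nonneg _)).trans (le_of_eq (by rw [hd]; ring))))
    rw [sub_apply, inner_sub_right, hA, inner_Aop hS] at h2
    rw [← hN] at h1
    linarith
  refine (phi_le hS z i (V := V₀ + S * √d) (by positivity) le_rfl
    (fun u => hV _ u d hd0 hdom) f (fun j => |y j|) fun j => abs_nonneg _).trans ?_
  have e : ∑ k, |y k| ^ (2 * i + 4) = frob (N ^ (i + 2)) := by
    rw [frob_pow hf]
    exact Finset.sum_congr rfl fun k _ => by rw [show 2 * i + 4 = 2 * (i + 2) by ring, (even_two_mul (i + 2)).pow_abs]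
  have eS : frob (Aop (t + σ) μ z ^ (i + 2)) = strace (t + σ) μ (i + 2) z := rfl
  rw [e, eS]
  have hsum := frob_mop_le (t := t) (θ₀ := θ₀) hS hR hσ hf (i + 2)
  rw [← hN] at hsum
  have hW1 := strace_le (μ := μ) hS (t + σ) (i + 2) z
  have hW2 := strace_le (μ := μ) hS t (i + 2) θ₀
  have h0 : 0 ≤ frob (N ^ (i + 2)) + strace (t + σ) μ (i + 2) z := add_nonneg (frob_nonneg _) (strace_nonneg _ _ _)
  have hsd := sqrt_le_amgm hd0 hη (norm_le_frob (A - N))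
  have h10 := mul_le_mul_of_nonneg_left (add_le_add hsum (le_refl (strace (t + σ) μ (i + 2) z))) hV₀
  have h11 := mul_le_mul (mul_le_mul_of_nonneg_left hsd hS0)
    (show frob (N ^ (i + 2)) + strace (t + σ) μ (i + 2) z ≤ 2 * (n * (4 * R ^ 2) ^ (2 * (i + 2))) by linarith) h0
    (mul_nonneg hS0 ((Real.sqrt_nonneg _).trans hsd))
  linarith

lemma integral_four {α : Type*} [MeasurableSpace α] {P : Measure α} [IsProbabilityMeasure P] {f g h : α → ℝ}
    (hf : Integrable f P) (hg : Integrable g P) (hh : Integrable h P) (c a b d : ℝ) :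
    ∫ z, (c + a * f z + b * g z + d * h z) ∂P = c + a * ∫ z, f z ∂P + b * ∫ z, g z ∂P + d * ∫ z, h z ∂P := by
  have i1 : Integrable (fun z => c + a * f z) P := (integrable_const c).add (hf.const_mul a)
  have i2 : Integrable (fun z => c + a * f z + b * g z) P := i1.add (hg.const_mul b)
  rw [integral_add i2 (hh.const_mul d), integral_add i1 (hg.const_mul b),
    integral_add (integrable_const c) (hf.const_mul a), integral_const_mul, integral_const_mul, integral_const_mul,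
    integral_const, probReal_univ, one_smul]

lemma moment_arith {E W0 c0 m1 V₀ S η r Wm L C2 Q4 : ℝ} (hc0 : 0 ≤ c0) (hm1 : 0 ≤ m1) (hS : 0 ≤ S) (hη : 0 ≤ η)
    (hr : 0 ≤ r) (hWm : 0 ≤ Wm) (hL : 0 ≤ L) (hC : 0 ≤ C2) (hQ : 0 ≤ Q4)
    (h : E ≤ W0 + 12 * m1 * (c0 * (12 * (V₀ * (W0 + E) + S * (2 * Wm) * (2 * η + r * L)))) + C2 * (Q4 * c0 ^ 2)) :
    E ≤ W0 + 144 * m1 * c0 * V₀ * (W0 + E)
      + (144 * m1 * (2 * Wm) * (2 + L) + C2 * Q4) * (S * (η + r) + c0) * c0 := by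
  have h1 : 2 * η + r * L ≤ (2 + L) * (η + r) := by linarith [mul_nonneg hL hη]
  have h2 := mul_le_mul_of_nonneg_left h1 (by positivity : 0 ≤ 144 * m1 * (2 * Wm) * S * c0)
  have h3 : 0 ≤ 144 * m1 * (2 * Wm) * (2 + L) * c0 * c0 := by positivity
  have h4 : 0 ≤ C2 * Q4 * (S * (η + r)) * c0 := by positivity
  linarith

/-- One step of the localisation for the trace of a power, exact to first order. -/
lemma moment_lin (hS : Supp μ R) (hR : 0 ≤ R) (hσ : 0 ≤ σ) (hK : 0 ≤ K) (hP : Poin (fib t μ θ₀) R K 0)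
    (i : ℕ) {V₀ S η : ℝ} (hV₀ : 0 ≤ V₀) (hS0 : 0 ≤ S) (hη : 0 < η)
    (hV : ∀ (z u : Euc n) (δ : ℝ), 0 ≤ δ →
      (∀ v, aent (t + σ) μ z v v ≤ aent t μ θ₀ v v + δ * ‖v‖ ^ 2) →
      sw (t + σ) μ z u ^ 2 ≤ aent (t + σ) μ z u u * (4 * (V₀ + S * √δ) * tw (t + σ) μ z u + 0 * sw (t + σ) μ z u)) :
    ∫ z, strace (t + σ) μ (i + 2) (stp σ θ₀ z) ∂((fib t μ θ₀).prod (gam n))
      ≤ strace t μ (i + 2) θ₀ + 144 * ((i : ℝ) + 2) ^ 2 * (K * σ ^ 2 + σ) * V₀
          * (strace t μ (i + 2) θ₀ + ∫ z, strace (t + σ) μ (i + 2) (stp σ θ₀ z) ∂((fib t μ θ₀).prod (gam n)))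
        + kerr n R i * (S * (η + (K * σ ^ 2 + σ) / η ^ 3) + (K * σ ^ 2 + σ)) * (K * σ ^ 2 + σ) := by
  have := isProb_fib (T := t) hS θ₀
  have hc0 : 0 ≤ K * σ ^ 2 + σ := by positivity
  obtain ⟨hG1, hG2⟩ := dev_frob hS hσ hK hP
  have hdev := fun u (hu : ‖u‖ = 1) => dev_apply hS hσ hK hP (u := u) hu
  obtain ⟨f, y, hf⟩ := (symOp_mop (t := t) (σ := σ) (θ₀ := θ₀) hS).exists_eigen
  set P := (fib t μ θ₀).prod (gam n)
  set c0 := K * σ ^ 2 + σ
  set N := mop t σ μ θ₀ with hN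
  set A := fun z => Aop (t + σ) μ (stp σ θ₀ z) with hA
  have hAc : Continuous A := (continuous_Aop hS).comp (continuous_stp σ θ₀)
  have hDn : ∀ z, ‖A z - N‖ ≤ 8 * R ^ 2 := fun z => (norm_sub_le _ _).trans
    (by linarith [norm_Aop_le hS (t + σ) (stp σ θ₀ z), norm_mop_le (t := t) (σ := σ) (θ₀ := θ₀) hS])
  have hjc : ∀ j, Continuous fun z => ‖(A z - N) (f j)‖ ^ 2 := fun j =>
    ((hAc.sub continuous_const).clm_apply continuous_const).norm.pow 2
  have hjb : ∀ j z, |‖(A z - N) (f j)‖ ^ 2| ≤ (8 * R ^ 2) ^ 2 := fun j z => by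
    rw [abs_of_nonneg (sq_nonneg _)]
    refine pow_le_pow_left₀ (norm_nonneg _) (((A z - N).le_opNorm _).trans ?_) 2
    rw [f.orthonormal.1 j, mul_one]; exact hDn z
  have iA : ∀ j, Integrable (fun z => y j ^ (2 * (i + 1) + 1) * (⟪f j, A z (f j)⟫ - y j)) P := fun j => by
    simp only [hA, inner_Aop hS]
    exact ((integrable_bdd ((continuous_aent hS _ _).comp (continuous_stp σ θ₀)) fun z => abs_aent_le hS _ _ _).sub
      (integrable_const _)).const_mul _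
  have iQj : ∀ j, Integrable (fun z => y j ^ (2 * (i + 1)) * ‖(A z - N) (f j)‖ ^ 2) P := fun j =>
    (integrable_bdd (hjc j) (hjb j)).const_mul _
  have iG : Integrable (fun z => frob (A z - N)) P :=
    integrable_bdd (continuous_frob.comp (hAc.sub continuous_const)) (b := n * (8 * R ^ 2) ^ (2 * 1)) fun z => by
      rw [abs_of_nonneg (frob_nonneg _)]
      have h := frob_pow_le ((symOp_Aop hS _).sub (symOp_mop hS)) (hDn z) 1
      rw [pow_one] at h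
      exact h
  have iG2 : Integrable (fun z => frob (A z - N) ^ 2) P :=
    integrable_bdd ((continuous_frob.comp (hAc.sub continuous_const)).pow 2) (b := (n * (8 * R ^ 2) ^ (2 * 1)) ^ 2) fun z => by
      rw [abs_pow, abs_of_nonneg (frob_nonneg _)]
      refine pow_le_pow_left₀ (frob_nonneg _) ?_ 2
      have h := frob_pow_le ((symOp_Aop hS _).sub (symOp_mop hS)) (hDn z) 1
      rw [pow_one] at h
      exact h
  have iW : Integrable (fun z => strace (t + σ) μ (i + 2) (stp σ θ₀ z)) P :=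
    integrable_bdd ((continuous_strace hS _ _).comp (continuous_stp σ θ₀)) fun z => by
      rw [abs_of_nonneg (strace_nonneg _ _ _)]; exact strace_le hS _ _ _
  set m1 := ((i : ℝ) + 2) ^ 2 with hm1
  set C2 := 8 * m1 * (n * (((i : ℝ) + 1) * (1 + 4 * R ^ 2) ^ (i + 1)) ^ 2) with hC2
  have hpt : ∀ z, strace (t + σ) μ (i + 2) (stp σ θ₀ z) ≤ frob (N ^ (i + 2))
      + ((2 * (i + 1 + 1) : ℕ) : ℝ) * (∑ j, y j ^ (2 * (i + 1) + 1) * (⟪f j, A z (f j)⟫ - y j))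
      + 12 * m1 * (∑ j, y j ^ (2 * (i + 1)) * ‖(A z - N) (f j)‖ ^ 2) + C2 * frob (A z - N) ^ 2 := fun z => by
    have h := frob_pow_bregman' (M := A z) (symOp_Aop hS _) hf (symOp_mop hS) (B := 4 * R ^ 2) (norm_Aop_le hS _ _)
      (norm_mop_le hS) (i + 1)
    have e : (((i + 1 : ℕ) : ℝ) + 1) = (i : ℝ) + 2 := by push_cast; ring
    rw [e, show (((i + 1 : ℕ) : ℝ)) = (i : ℝ) + 1 by push_cast; ring, ← hm1, ← hC2] at h
    exact h
  have iRhs : Integrable (fun z => frob (N ^ (i + 2))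
      + ((2 * (i + 1 + 1) : ℕ) : ℝ) * (∑ j, y j ^ (2 * (i + 1) + 1) * (⟪f j, A z (f j)⟫ - y j))
      + 12 * m1 * (∑ j, y j ^ (2 * (i + 1)) * ‖(A z - N) (f j)‖ ^ 2) + C2 * frob (A z - N) ^ 2) P :=
    (((integrable_const _).add ((integrable_finsetSum _ fun j _ => iA j).const_mul _)).add
      ((integrable_finsetSum _ fun j _ => iQj j).const_mul _)).add (iG2.const_mul _)
  have h1 := (integral_mono iW iRhs hpt).trans (le_of_eq (integral_four (integrable_finsetSum _ fun j _ => iA j)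
    (integrable_finsetSum _ fun j _ => iQj j) iG2 _ _ _ _))
  have hL0 : ∫ z, ∑ j, y j ^ (2 * (i + 1) + 1) * (⟪f j, A z (f j)⟫ - y j) ∂P = 0 := by
    rw [integral_finsetSum _ fun j _ => iA j]
    refine Finset.sum_eq_zero fun j _ => ?_
    simp only [hA, inner_Aop hS]
    rw [integral_const_mul, integral_sub (f := fun z => aent (t + σ) μ (stp σ θ₀ z) (f j) (f j)) (g := fun _ => y j)
      (integrable_bdd ((continuous_aent hS _ _).comp (continuous_stp σ θ₀)) fun z => abs_aent_le hS _ _ _) (integrable_const _),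
      integral_const, probReal_univ, one_smul, ← inner_mop hS, ← hN, hf, inner_smul_right, real_inner_self_eq_norm_sq,
      f.orthonormal.1 j]
    simp
  rw [hL0, mul_zero, add_zero] at h1
  have hswi : ∀ j, Integrable (fun z => |y j| ^ (2 * i + 2) * sw (t + σ) μ (stp σ θ₀ z) (f j)) P := fun j => by
    refine (integrable_bdd (φ := fun z => sw (t + σ) μ (stp σ θ₀ z) (f j)) (continuous_finsetSum _ fun c _ =>
      (((continuous_wvec hS _ _).comp (continuous_stp σ θ₀)).norm.pow 2)) (b := n * (‖f j‖ * (8 * R ^ 3)) ^ 2) fun z => ?_).const_mul _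
    rw [abs_of_nonneg (sw_nonneg _ _)]; exact sw_le hS _ _ _
  have hQ1 : ∫ z, ∑ j, y j ^ (2 * (i + 1)) * ‖(A z - N) (f j)‖ ^ 2 ∂P
      ≤ c0 * ∫ z, ∑ j, |y j| ^ (2 * i + 2) * sw (t + σ) μ (stp σ θ₀ z) (f j) ∂P := by
    rw [integral_finsetSum _ fun j _ => iQj j, integral_finsetSum _ fun j _ => hswi j, Finset.mul_sum]
    refine Finset.sum_le_sum fun j _ => ?_
    rw [integral_const_mul, integral_const_mul, show |y j| ^ (2 * i + 2) = y j ^ (2 * (i + 1)) by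
      rw [show 2 * i + 2 = 2 * (i + 1) by ring, (even_two_mul (i + 1)).pow_abs], mul_left_comm c0]
    exact mul_le_mul_of_nonneg_left (hdev _ (f.orthonormal.1 j)) ((even_two_mul (i + 1)).pow_nonneg _)
  set W0 := strace t μ (i + 2) θ₀ with hW0
  set Wm := (n : ℝ) * (4 * R ^ 2) ^ (2 * (i + 2)) with hWm
  have hWm0 : 0 ≤ Wm := mul_nonneg n.cast_nonneg ((even_two_mul (i + 2)).pow_nonneg _)
  have iR2 : Integrable (fun z => 12 * (V₀ * (W0 + strace (t + σ) μ (i + 2) (stp σ θ₀ z))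
      + S * (2 * Wm) * (2 * η + frob (A z - N) / η ^ 3))) P :=
    ((((integrable_const W0).add iW).const_mul V₀).add (((integrable_const (2 * η)).add (iG.div_const _)).const_mul _)).const_mul 12
  have h2 := integral_mono (integrable_finsetSum _ fun j _ => hswi j) iR2
    fun z => sum_weighted_sw_le hS hR hσ i hV₀ hS0 hη hV hf (stp σ θ₀ z)
  have e2 : ∫ z, 12 * (V₀ * (W0 + strace (t + σ) μ (i + 2) (stp σ θ₀ z)) + S * (2 * Wm) * (2 * η + frob (A z - N) / η ^ 3)) ∂P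
      = 12 * (V₀ * (W0 + ∫ z, strace (t + σ) μ (i + 2) (stp σ θ₀ z) ∂P) + S * (2 * Wm) * (2 * η + (∫ z, frob (A z - N) ∂P) / η ^ 3)) := by
    rw [integral_congr_ae (g := fun z => (12 * (V₀ * W0) + 24 * (S * (2 * Wm)) * η) + (12 * V₀) * strace (t + σ) μ (i + 2) (stp σ θ₀ z)
      + (12 * (S * (2 * Wm)) / η ^ 3) * frob (A z - N) + 0 * frob (A z - N) ^ 2) (Eventually.of_forall fun z => by ring),
      integral_four iW iG iG2]
    ring
  rw [e2] at h2
  have hη3 : 0 < η ^ 3 := by positivity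
  have h3 : S * (2 * Wm) * (2 * η + (∫ z, frob (A z - N) ∂P) / η ^ 3)
      ≤ S * (2 * Wm) * (2 * η + c0 / η ^ 3 * (n ^ 2 * (8 * R ^ 3) ^ 2)) := by
    refine mul_le_mul_of_nonneg_left (add_le_add le_rfl ?_) (by positivity)
    rw [div_mul_eq_mul_div]
    exact div_le_div_of_nonneg_right hG1 hη3.le
  have hm10 : 0 ≤ m1 := sq_nonneg _
  have hC20 : 0 ≤ C2 := by rw [hC2]; positivity
  have hNW : frob (N ^ (i + 2)) ≤ W0 := frob_mop_le hS hR hσ hf _
  have hEW := add_le_add (le_refl (V₀ * (W0 + ∫ z, strace (t + σ) μ (i + 2) (stp σ θ₀ z) ∂P))) h3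
  have h4 := mul_le_mul_of_nonneg_left (hQ1.trans (mul_le_mul_of_nonneg_left
    (h2.trans (mul_le_mul_of_nonneg_left hEW (by norm_num : (0:ℝ) ≤ 12))) hc0)) (mul_nonneg (by norm_num : (0:ℝ) ≤ 12) hm10)
  have h5 := mul_le_mul_of_nonneg_left hG2 hC20
  have h6 := h1.trans (add_le_add (add_le_add hNW h4) h5)
  have h7 := moment_arith (Q4 := 5 * (n : ℝ) ^ 4 * (8 * R ^ 3) ^ 4) hc0 hm10 hS0 hη.le (div_nonneg hc0 hη3.le) hWm0
    (by positivity) hC20 (by positivity) h6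
  refine h7.trans (le_of_eq ?_)
  simp only [kerr, hC2, hm1, hWm]

/-- One step of the drift of `phi`. -/
lemma phi_step (hS : Supp μ R) (hR : 0 ≤ R) (hσ : 0 ≤ σ) (hK : 0 ≤ K) (hP : Poin (fib t μ θ₀) R K 0)
    (i : ℕ) {V₀ S η : ℝ} (hV₀ : 0 ≤ V₀) (hS0 : 0 ≤ S) (hη : 0 < η)
    (hV : ∀ (z u : Euc n) (δ : ℝ), 0 ≤ δ →
      (∀ v, aent (t + σ) μ z v v ≤ aent t μ θ₀ v v + δ * ‖v‖ ^ 2) →
      sw (t + σ) μ z u ^ 2 ≤ aent (t + σ) μ z u u * (4 * (V₀ + S * √δ) * tw (t + σ) μ z u + 0 * sw (t + σ) μ z u))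
    (hsmall : 144 * ((i : ℝ) + 2) ^ 2 * (K * σ ^ 2 + σ) * V₀ ≤ 1 / 2) :
    phi t μ (i + 2) θ₀ - (144 * ((i : ℝ) + 2) * (K * σ ^ 2 + σ) * (V₀ * phi t μ (i + 2) θ₀)
        + kerr n R i * (S * (η + (K * σ ^ 2 + σ) / η ^ 3) + (K * σ ^ 2 + σ)) * (K * σ ^ 2 + σ))
      ≤ ∫ z, phi (t + σ) μ (i + 2) (stp σ θ₀ z) ∂((fib t μ θ₀).prod (gam n)) := by
  have := isProb_fib (T := t) hS θ₀
  set P := (fib t μ θ₀).prod (gam n)
  set c0 := K * σ ^ 2 + σ
  set m := ((i : ℝ) + 2) with hm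
  have hm0 : 0 < m := by positivity
  have h := moment_lin hS hR hσ hK hP i hV₀ hS0 hη hV
  set W0 := strace t μ (i + 2) θ₀
  set EW := ∫ z, strace (t + σ) μ (i + 2) (stp σ θ₀ z) ∂P
  set ε := kerr n R i * (S * (η + c0 / η ^ 3) + c0) * c0
  set δ := 144 * m ^ 2 * c0 * V₀ with hδ
  have hc0 : 0 ≤ c0 := by positivity
  have hδ0 : 0 ≤ δ := by positivity
  have hε : 0 ≤ ε := by have := kerr_nonneg n R i; positivity
  have hW0 : 0 ≤ W0 := strace_nonneg _ _ _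
  have hEW : 0 ≤ EW := integral_nonneg fun z => strace_nonneg _ _ _
  have hD : EW - W0 ≤ 4 * δ * W0 + 2 * ε := by
    rcases le_or_gt EW W0 with hle | hgt
    · nlinarith
    · have h1 := mul_le_mul_of_nonneg_right hsmall (by linarith : 0 ≤ EW - W0)
      linarith
  set p := 1 / (4 * ((i + 2 : ℕ) : ℝ)) with hp
  have hp' : p = 1 / (4 * m) := by rw [hp, hm]; push_cast; ring
  have hp0 : 0 ≤ p := by rw [hp']; positivity
  set Q := 1 + W0 with hQ
  have hQ0 : 0 < Q := by linarith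
  have hφ : phi t μ (i + 2) θ₀ = Q ^ (-p) := rfl
  have iW : Integrable (fun z => strace (t + σ) μ (i + 2) (stp σ θ₀ z)) P :=
    integrable_bdd ((continuous_strace hS _ _).comp (continuous_stp σ θ₀)) fun z => by
      rw [abs_of_nonneg (strace_nonneg _ _ _)]; exact strace_le hS _ _ _
  have iφ : Integrable (fun z => phi (t + σ) μ (i + 2) (stp σ θ₀ z)) P :=
    integrable_bdd ((continuous_phi hS _ _).comp (continuous_stp σ θ₀)) fun z => abs_phi_le _ _ _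
  set a := Q ^ (-p) * p / Q with ha
  have hpt : ∀ z, Q ^ (-p) - a * (strace (t + σ) μ (i + 2) (stp σ θ₀ z) - W0) ≤ phi (t + σ) μ (i + 2) (stp σ θ₀ z) := fun z => by
    refine le_trans (le_of_eq ?_) (rpow_neg_tangent hp0 hQ0 (by linarith [strace_nonneg (μ := μ) (t + σ) (i + 2) (stp σ θ₀ z)] :
      0 < 1 + strace (t + σ) μ (i + 2) (stp σ θ₀ z)))
    have e1 : (1 + strace (t + σ) μ (i + 2) (stp σ θ₀ z)) / Q - 1 = (strace (t + σ) μ (i + 2) (stp σ θ₀ z) - W0) / Q := by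
      rw [div_sub_one hQ0.ne', hQ]; ring_nf
    rw [e1, ha]; ring
  have iD : Integrable (fun z => a * (strace (t + σ) μ (i + 2) (stp σ θ₀ z) - W0)) P := (iW.sub (integrable_const W0)).const_mul a
  have iL' : Integrable (fun z => Q ^ (-p) - a * (strace (t + σ) μ (i + 2) (stp σ θ₀ z) - W0)) P := (integrable_const _).sub iD
  have h2 := integral_mono iL' iφ hpt
  rw [integral_sub (integrable_const _) iD, integral_const_mul,
    integral_sub iW (integrable_const W0), integral_const, integral_const, probReal_univ, one_smul, one_smul] at h2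
  change Q ^ (-p) - a * (EW - W0) ≤ _ at h2
  refine le_trans ?_ h2
  have hφ0 : 0 < Q ^ (-p) := rpow_pos_of_pos hQ0 _
  have hφ1 : Q ^ (-p) ≤ 1 := rpow_le_one_of_one_le_of_nonpos (by linarith) (by linarith)
  have ha0 : 0 ≤ a := by rw [ha]; positivity
  have h3 := mul_le_mul_of_nonneg_left hD ha0
  have h4 : a * (4 * δ * W0) ≤ Q ^ (-p) * (144 * m * c0 * V₀) := by
    have e : Q ^ (-p) * (144 * m * c0 * V₀) = Q ^ (-p) * p * (4 * δ) := by rw [hp', hδ]; field_simp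
    rw [e, ha, show Q ^ (-p) * p / Q * (4 * δ * W0) = Q ^ (-p) * p * (4 * δ) * (W0 / Q) by ring]
    exact mul_le_of_le_one_right (by positivity) ((div_le_one hQ0).2 (by linarith))
  have h5 : a * (2 * ε) ≤ ε := by
    have h6 : a ≤ 1 / 2 := by
      rw [ha, div_le_iff₀ hQ0]
      have : p ≤ 1 / 2 := by
        rw [hp', div_le_div_iff₀ (by positivity) (by norm_num)]
        rw [hm]; linarith [(i.cast_nonneg : (0 : ℝ) ≤ i)]
      nlinarith [mul_le_mul hφ1 this hp0 zero_le_one]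
    have := mul_le_mul_of_nonneg_right h6 hε
    linarith
  rw [hφ]
  linarith

end

end Vale.Agent.P245N.Tail
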